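import Mathlib

/-!
Random strictly increasing tuples of naturals all of whose sub-tuples of a given length have almost
the same law.
-/

set_option autoImplicit false

open Finset
open scoped BigOperators

namespace Crest.Agent.R140

lemma ex_prod {A B : Type*} [Fintype A] [Fintype B] (f : A × B → ℝ) :
    𝔼 x : A × B, f x = 𝔼 a, 𝔼 b, f (a, b) := by
  rw [← Finset.univ_product_univ, Finset.expect_product]

lemma ex_split {n : ℕ} {U : Type*} [Fintype U] (i : Fin (n + 1)) (H : U → (Fin n → U) → ℝ) :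
    𝔼 u : Fin (n + 1) → U, H (u i) (fun j => u (i.succAbove j)) = 𝔼 a, 𝔼 u', H a u' := by
  rw [← ex_prod (fun x : U × (Fin n → U) => H x.1 x.2)]
  refine (Fintype.expect_equiv (Fin.insertNthEquiv (fun _ => U) i) _ _ fun x => ?_).symm
  simp [Fin.insertNthEquiv]

lemma abs_ex_sub_le {A : Type*} [Fintype A] [Nonempty A] {f g : A → ℝ} {η : ℝ}
    (h : ∀ a, |f a - g a| ≤ η) : |𝔼 a, f a - 𝔼 a, g a| ≤ η := by
  rw [← Finset.expect_sub_distrib]
  exact (Finset.abs_expect_le _ _).trans (Finset.expect_le univ_nonempty fun a _ => h a)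

lemma ex_mem {A : Type*} [Fintype A] [Nonempty A] {f : A → ℝ} (h : ∀ a, 0 ≤ f a ∧ f a ≤ 1) :
    0 ≤ 𝔼 a, f a ∧ 𝔼 a, f a ≤ 1 :=
  ⟨Finset.expect_nonneg fun a _ => (h a).1, Finset.expect_le univ_nonempty fun a _ => (h a).2⟩

lemma ex_update {Λ U : Type*} [Fintype Λ] [DecidableEq Λ] [Fintype U] [Nonempty U] (s : Λ)
    (F : (Λ → U) → ℝ) : 𝔼 ω : Λ → U, F ω = 𝔼 ω : Λ → U, 𝔼 a, F (Function.update ω s a) := by
  rw [← ex_prod (fun x : (Λ → U) × U => F (Function.update x.1 s x.2))]
  have hinv : Function.Involutive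
      (fun x : (Λ → U) × U => (Function.update x.1 s x.2, x.1 s)) := by
    rintro ⟨ω, a⟩; simp
  rw [Fintype.expect_bijective _ hinv.bijective _ (fun x => F x.1) (fun _ => rfl), ex_prod]
  simp

lemma ex_mix {Λ U : Type*} [Fintype Λ] [DecidableEq Λ] [Fintype U] [Nonempty U] (p : Λ → Prop)
    [DecidablePred p] (F : (Λ → U) → ℝ) :
    𝔼 ω : Λ → U, 𝔼 u : Λ → U, F (fun l => if p l then u l else ω l) = 𝔼 ω : Λ → U, F ω := by
  rw [← ex_prod (fun x : (Λ → U) × (Λ → U) => F (fun l => if p l then x.2 l else x.1 l))]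
  have hinv : Function.Involutive (fun x : (Λ → U) × (Λ → U) =>
      ((fun l => if p l then x.2 l else x.1 l), (fun l => if p l then x.1 l else x.2 l))) := by
    rintro ⟨ω, u⟩
    ext l <;> by_cases h : p l <;> simp [h]
  rw [Fintype.expect_bijective _ hinv.bijective _ (fun x => F x.1) (fun _ => rfl), ex_prod]
  simp

lemma ex_shift {L : ℕ} [NeZero L] (G : ℕ → ℝ) (hG : ∀ x, 0 ≤ G x ∧ G x ≤ 1) :
    |𝔼 a : Fin L, G (a + 1) - 𝔼 a : Fin L, G a| ≤ 1 / L := by
  have hL : (0 : ℝ) < L := by exact_mod_cast Nat.pos_of_ne_zero (NeZero.ne L)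
  rw [← Finset.expect_sub_distrib, Fintype.expect_eq_sum_div_card, Fintype.card_fin,
    Fin.sum_univ_eq_sum_range (fun a => G (a + 1) - G a), Finset.sum_range_sub, abs_div,
    abs_of_pos hL]
  gcongr
  rw [abs_le]
  constructor <;> linarith [hG L, hG 0]

/-- deleting any one entry gives almost the same law -/
def Del {S P : Type*} [Fintype S] {n : ℕ} (η : ℝ) (φ : S → Fin (n + 1) → P) : Prop :=
  ∀ i j : Fin (n + 1), ∀ g : (Fin n → P) → ℝ, (∀ x, 0 ≤ g x ∧ g x ≤ 1) →
    |𝔼 s, g (fun a => φ s (i.succAbove a)) - 𝔼 s, g (fun a => φ s (j.succAbove a))| ≤ η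

lemma exists_rank {P : Type*} [LinearOrder P] (F : Finset P) :
    ∃ r : P → ℕ, ∀ x ∈ F, ∀ y, x < y → r x < r y := by
  refine ⟨fun x => (F.filter (· < x)).card, fun x hx y hxy => Finset.card_lt_card ⟨?_, ?_⟩⟩
  · intro z hz
    simp only [mem_filter] at hz ⊢
    exact ⟨hz.1, hz.2.trans hxy⟩
  · intro h
    have := h (show x ∈ F.filter (· < y) by simp [hx, hxy])
    simp at this

/-- a point leaving the centre `ω` at level `s` -/
def bump {K : ℕ} (ω : Fin K → ℕ) (s : ℕ) (u : Fin K → ℕ) : Fin K → ℕ :=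
  fun l => if l.val < s then u l else if l.val = s then ω l + 1 else ω l

lemma bump_bump {K : ℕ} (ω u v : Fin K → ℕ) {s s' : ℕ} (h : s < s') :
    bump (bump ω s u) s' v = bump ω s' v := by
  ext l
  simp only [bump]
  split_ifs <;> first | rfl | omega

lemma lt_bump {K : ℕ} (ω u : Fin K → ℕ) {s : ℕ} (h : s < K) :
    toColex ω < toColex (bump ω s u) := by
  refine ⟨⟨s, h⟩, fun j hj => ?_, ?_⟩
  · have : s < j.val := hj
    simp only [Pi.toColex_apply, bump]
    split_ifs <;> first | rfl | omega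
  · simp [bump]

lemma ex_bump {K L : ℕ} [NeZero L] {s : ℕ} (hs : s < K) (G : (Fin K → ℕ) → ℝ)
    (hG : ∀ x, 0 ≤ G x ∧ G x ≤ 1) :
    |𝔼 ω : Fin K → Fin L, 𝔼 u : Fin K → Fin L, G (bump (fun l => ω l) s (fun l => u l))
      - 𝔼 ω : Fin K → Fin L, G (fun l => ω l)| ≤ 1 / L := by
  have h1 := ex_mix (U := Fin L) (fun l : Fin K => l.val < s)
    (fun ω => G (Function.update (fun l => (ω l : ℕ)) ⟨s, hs⟩ (ω ⟨s, hs⟩ + 1)))
  have h2 : ∀ ω u : Fin K → Fin L, bump (fun l => (ω l : ℕ)) s (fun l => u l) =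
      Function.update (fun l => ((if l.val < s then u l else ω l : Fin L) : ℕ)) ⟨s, hs⟩
        ((if (⟨s, hs⟩ : Fin K).val < s then u ⟨s, hs⟩ else ω ⟨s, hs⟩ : Fin L) + 1) := by
    intro ω u
    ext l
    by_cases hl : l = ⟨s, hs⟩
    · subst hl; simp [bump]
    · have : l.val ≠ s := fun h => hl (Fin.ext h)
      rw [Function.update_of_ne hl]
      simp only [bump, this, if_false]
      split_ifs <;> rfl
  simp_rw [h2]
  rw [h1, ex_update (⟨s, hs⟩ : Fin K), 
    ex_update (⟨s, hs⟩ : Fin K) (fun ω : Fin K → Fin L => G fun l => ω l)]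
  refine abs_ex_sub_le fun ω => ?_
  have := ex_shift (L := L) (fun a => G (Function.update (fun l => (ω l : ℕ)) ⟨s, hs⟩ a))
    (fun _ => hG _)
  convert this using 5 with a _ a
  · ext l
    by_cases hl : l = ⟨s, hs⟩
    · subst hl; simp
    · simp [Function.update_of_ne hl]
  · ext l
    by_cases hl : l = ⟨s, hs⟩
    · subst hl; simp
    · simp [Function.update_of_ne hl]

theorem exists_del (L : ℕ) [NeZero L] (n : ℕ) :
    ∃ (S : Type) (_ : Fintype S) (_ : Nonempty S) (φ : S → Fin (n + 1) → ℕ),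
      (∀ s, StrictMono (φ s)) ∧ Del (n / L) φ := by
  have hL : (0 : ℝ) < L := by exact_mod_cast Nat.pos_of_ne_zero (NeZero.ne L)
  induction n with
  | zero =>
    refine ⟨Unit, inferInstance, inferInstance, fun _ _ => 0, fun _ a b h => absurd h (by omega),
      fun i j g _ => by simp⟩
  | succ n ih =>
    classical
    obtain ⟨S, _, _, φ, hφ, hd⟩ := ih
    obtain ⟨K, hK⟩ : ∃ K, ∀ s i, φ s i < K :=
      ⟨(univ.sup fun x : S × Fin (n + 1) => φ x.1 x.2) + 1, fun s i =>
        Nat.lt_succ_of_le (Finset.le_sup (f := fun x : S × Fin (n + 1) => φ x.1 x.2)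
          (mem_univ (s, i)))⟩
    let X : S × (Fin K → Fin L) × (Fin (n + 1) → Fin K → Fin L) → Fin (n + 2) → (Fin K → ℕ) :=
      fun x => Fin.cons (fun l => (x.2.1 l : ℕ))
        (fun i => bump (fun l => x.2.1 l) (φ x.1 i) (fun l => x.2.2 i l))
    have hX : ∀ x, StrictMono fun i => toColex (X x i) := by
      intro x
      rw [Fin.strictMono_iff_lt_succ]
      intro i
      refine Fin.cases ?_ (fun i => ?_) i
      · exact lt_bump _ _ (hK _ _)
      · change toColex (bump _ (φ x.1 i.castSucc) _) < toColex (bump _ (φ x.1 i.succ) _)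
        rw [← bump_bump _ (fun l => x.2.2 i.castSucc l) _ (hφ x.1 Fin.castSucc_lt_succ)]
        exact lt_bump _ _ (hK _ _)
    have hsucc : ∀ (i : Fin (n + 1)) (g : (Fin (n + 1) → (Fin K → ℕ)) → ℝ),
        𝔼 x, g (fun a => X x (i.succ.succAbove a)) =
        𝔼 s, (fun y : Fin n → ℕ => 𝔼 ω : Fin K → Fin L, 𝔼 u : Fin n → Fin K → Fin L,
          g (Fin.cons (fun l => (ω l : ℕ)) (fun j => bump (fun l => ω l) (y j) (fun l => u j l))))
          (fun a => φ s (i.succAbove a)) := by
      intro i g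
      rw [ex_prod]
      refine Finset.expect_congr rfl fun s _ => ?_
      rw [ex_prod]
      refine Finset.expect_congr rfl fun ω _ => ?_
      have := ex_split i (fun (_ : Fin K → Fin L) (u : Fin n → Fin K → Fin L) =>
        g (Fin.cons (fun l => (ω l : ℕ))
          (fun j => bump (fun l => ω l) (φ s (i.succAbove j)) (fun l => u j l))))
      rw [Fintype.expect_const] at this
      rw [← this]
      refine Finset.expect_congr rfl fun u _ => ?_
      congr 1
      ext a : 1
      refine Fin.cases ?_ (fun a => ?_) a <;> simp [X]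
    have h0 : ∀ (g : (Fin (n + 1) → (Fin K → ℕ)) → ℝ), (∀ x, 0 ≤ g x ∧ g x ≤ 1) →
        |𝔼 x, g (fun a => X x ((0 : Fin (n + 2)).succAbove a))
          - 𝔼 x, g (fun a => X x ((0 : Fin (n + 1)).succ.succAbove a))| ≤ 1 / L := by
      intro g hg
      rw [hsucc, ex_prod]
      refine abs_ex_sub_le fun s => ?_
      rw [ex_prod]
      have e : ∀ ω : Fin K → Fin L,
          𝔼 u : Fin (n + 1) → Fin K → Fin L, g (fun a => X (s, ω, u) ((0 : Fin (n + 2)).succAbove a))
          = 𝔼 u0 : Fin K → Fin L, (fun w : Fin K → ℕ => 𝔼 u : Fin n → Fin K → Fin L,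
            g (Fin.cons w (fun j => bump w (φ s j.succ) (fun l => u j l))))
            (bump (fun l => ω l) (φ s 0) (fun l => u0 l)) := by
        intro ω
        rw [← ex_split (0 : Fin (n + 1))
          (fun (u0 : Fin K → Fin L) (u : Fin n → Fin K → Fin L) =>
            g (Fin.cons (bump (fun l => ω l) (φ s 0) (fun l => u0 l)) (fun j =>
              bump (bump (fun l => ω l) (φ s 0) (fun l => u0 l)) (φ s j.succ) (fun l => u j l))))]
        refine Finset.expect_congr rfl fun u _ => ?_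
        congr 1
        ext a : 1
        refine Fin.cases ?_ (fun a => ?_) a
        · simp [X]
        · simp [X, bump_bump _ _ _ (hφ s (Fin.succ_pos a))]
      simp_rw [e]
      exact ex_bump (hK s 0) (fun w : Fin K → ℕ => 𝔼 u : Fin n → Fin K → Fin L,
        g (Fin.cons w (fun j => bump w (φ s j.succ) (fun l => u j l)))) fun _ => ex_mem fun _ => hg _
    have hss : ∀ (i j : Fin (n + 1)) (g : (Fin (n + 1) → (Fin K → ℕ)) → ℝ),
        (∀ x, 0 ≤ g x ∧ g x ≤ 1) → |𝔼 x, g (fun a => X x (i.succ.succAbove a))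
          - 𝔼 x, g (fun a => X x (j.succ.succAbove a))| ≤ n / L := by
      intro i j g hg
      rw [hsucc, hsucc]
      exact hd i j (fun y : Fin n → ℕ => 𝔼 ω : Fin K → Fin L, 𝔼 u : Fin n → Fin K → Fin L,
          g (Fin.cons (fun l => (ω l : ℕ)) (fun j => bump (fun l => ω l) (y j) (fun l => u j l))))
        fun _ => ex_mem fun _ => ex_mem fun _ => hg _
    have hD : Del (((n + 1 : ℕ) : ℝ) / L) X := by
      have e : ((n + 1 : ℕ) : ℝ) / L = 1 / L + n / L := by push_cast; ring
      have p1 : (0 : ℝ) ≤ 1 / L := by positivity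
      have p2 : (0 : ℝ) ≤ n / L := by positivity
      intro i j g hg
      rw [e]
      refine Fin.cases ?_ (fun i => ?_) i <;> refine Fin.cases ?_ (fun j => ?_) j
      · simp only [sub_self, abs_zero]; positivity
      · have h1 := h0 g hg
        have h2 := hss 0 j g hg
        exact (abs_sub_le _ _ _).trans (add_le_add h1 h2)
      · have h1 := h0 g hg
        have h2 := hss 0 i g hg
        rw [abs_sub_comm]
        exact (abs_sub_le _ _ _).trans (add_le_add h1 h2)
      · linarith [hss i j g hg]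
    obtain ⟨r, hr⟩ := exists_rank (univ.image fun y : _ × Fin (n + 2) => toColex (X y.1 y.2))
    refine ⟨_, inferInstance, inferInstance, fun x i => r (toColex (X x i)), fun x i j hij =>
      hr _ (mem_image_of_mem _ (mem_univ (x, i))) _ (hX x hij), fun i j g hg => ?_⟩
    exact hD i j (fun y => g fun a => r (toColex (y a))) fun _ => hg _

lemma Del.tail {S P : Type*} [Fintype S] {n : ℕ} {η : ℝ} {φ : S → Fin (n + 2) → P} (h : Del η φ) :
    Del η fun s (i : Fin (n + 1)) => φ s i.succ := by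
  intro i j g hg
  have := h i.succ j.succ (fun y => g fun a => y a.succ) fun _ => hg _
  simpa using this

lemma Del.sub {S P : Type*} [Fintype S] {η : ℝ} (hη : 0 ≤ η) {m : ℕ} (k : ℕ) :
    ∀ (φ : S → ℕ → P), (∀ n, m + k = n + 1 → Del η fun s (i : Fin (n + 1)) => φ s i) →
    ∀ σ : Fin m → ℕ, StrictMono σ → (∀ a, σ a < m + k) →
    ∀ g : (Fin m → P) → ℝ, (∀ x, 0 ≤ g x ∧ g x ≤ 1) →
      |𝔼 s, g (fun a => φ s (σ a)) - 𝔼 s, g (fun a => φ s (a + k))| ≤ k * η := by
  induction k with
  | zero =>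
    intro φ _ σ hσ hlt g _
    have : ∀ a, σ a = a := by
      have h1 : StrictMono fun a : Fin m => (⟨σ a, hlt a⟩ : Fin m) := fun a b h => hσ h
      intro a
      exact congrArg Fin.val (congrFun (h1.eq_id) a)
    simp [this]
  | succ k ih =>
    intro φ hφ σ hσ hlt g hg
    have hd := hφ (m + k) rfl
    obtain ⟨i, hi⟩ : ∃ i : Fin (m + k + 1), ∀ a, σ a ≠ i := by
      by_contra hne
      push Not at hne
      have hs : Function.Surjective fun a : Fin m => (⟨σ a, hlt a⟩ : Fin (m + k + 1)) := by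
        intro i
        obtain ⟨a, ha⟩ := hne i
        exact ⟨a, Fin.ext ha⟩
      have := Fintype.card_le_of_surjective _ hs
      simp at this
    choose τ hτ using fun a => Fin.exists_succAbove_eq
      (show (⟨σ a, hlt a⟩ : Fin (m + k + 1)) ≠ i from fun h => hi a (congrArg Fin.val h))
    have hτm : StrictMono fun a => (τ a : ℕ) := by
      intro a b hab
      have : i.succAbove (τ a) < i.succAbove (τ b) := by rw [hτ, hτ]; exact hσ hab
      exact Fin.succAbove_lt_succAbove_iff.1 this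
    have h1 := hd i 0 (fun y => g fun a => y (τ a)) fun _ => hg _
    simp only [hτ, Fin.succAbove_zero, Fin.val_succ] at h1
    have h2 := ih (fun s j => φ s (j + 1)) (fun n hn => by
      have := hφ (n + 1) (by omega)
      exact this.tail) (fun a => τ a) hτm (fun a => (τ a).isLt) g hg
    push_cast
    have := abs_sub_le (𝔼 s, g (fun a => φ s (σ a))) (𝔼 s, g (fun a => φ s (τ a + 1)))
      (𝔼 s, g (fun a => φ s (a + (k + 1))))
    simp only [← add_assoc] at this ⊢
    linarith

/-- Random increasing sequences whose sub-tuples (taken among the first `n` entries) all have almost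
the same law. -/
theorem exists_contractable (n : ℕ) {η : ℝ} (hη : 0 < η) :
    ∃ (S : Type) (_ : Fintype S) (_ : Nonempty S) (φ : S → ℕ → ℕ), (∀ s, StrictMono (φ s)) ∧
      ∀ (m : ℕ) (σ τ : Fin m → ℕ), StrictMono σ → StrictMono τ → (∀ a, σ a < n) → (∀ a, τ a < n) →
        ∀ g : (Fin m → ℕ) → ℝ, (∀ x, 0 ≤ g x ∧ g x ≤ 1) →
          |𝔼 s, g (fun a => φ s (σ a)) - 𝔼 s, g (fun a => φ s (τ a))| ≤ η := by
  obtain ⟨L, hL⟩ := exists_nat_gt (2 * (n + 1) * n / η)
  have hL0 : (0 : ℝ) < L := lt_of_le_of_lt (by positivity) hL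
  have : NeZero L := ⟨by rintro rfl; simp at hL0⟩
  obtain ⟨S, _, _, φ, hφ, hd⟩ := exists_del L n
  let ψ : S → ℕ → ℕ := fun s i => if h : i < n + 1 then φ s ⟨i, h⟩ else φ s (Fin.last n) + i
  have hψ : ∀ s, StrictMono (ψ s) := by
    intro s i j hij
    simp only [ψ]
    split_ifs with h1 h2 h2
    · exact hφ s hij
    · have := (hφ s).monotone (Fin.le_last ⟨i, h1⟩)
      omega
    · omega
    · omega
  refine ⟨S, inferInstance, inferInstance, ψ, hψ, fun m σ τ hσ hτ h1 h2 g hg => ?_⟩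
  have hm : m ≤ n := by
    have := Fintype.card_le_of_injective (fun a : Fin m => (⟨σ a, h1 a⟩ : Fin n))
      (fun a b h => hσ.injective (congrArg Fin.val h))
    simpa using this
  have hD : ∀ n', m + (n + 1 - m) = n' + 1 → Del (n / L) fun s (i : Fin (n' + 1)) => ψ s i := by
    intro n' hn'
    obtain rfl : n' = n := by omega
    have : (fun s (i : Fin (n' + 1)) => ψ s i) = φ := by
      funext s i
      exact dif_pos i.isLt
    rw [this]
    exact hd
  have e1 := Del.sub (by positivity) (n + 1 - m) ψ hD σ hσ (fun a => by have := h1 a; omega) g hg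
  have e2 := Del.sub (by positivity) (n + 1 - m) ψ hD τ hτ (fun a => by have := h2 a; omega) g hg
  rw [abs_sub_comm] at e2
  refine (abs_sub_le _ _ _).trans ((add_le_add e1 e2).trans ?_)
  have e3 : ((n + 1 - m : ℕ) : ℝ) ≤ n + 1 := by exact_mod_cast Nat.sub_le _ _
  rw [div_lt_iff₀ hη] at hL
  calc _ ≤ (n + 1) * ((n : ℝ) / L) + (n + 1) * (n / L) := by gcongr
    _ = 2 * (n + 1) * n / L := by ring
    _ ≤ η := by rw [div_le_iff₀ hL0]; linarith

end Crest.Agent.R140
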